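import Vale.Agent.P268.T.H863.KA

/-!
# P268, topological half, block B4b: the two ends of the swing

Description of `KA` (start) and of `NN` with the far sheet (end) on the open cone `swU (3 r₀)`
around the sheets and off it.
-/

set_option linter.unusedSectionVars false

namespace Vale.Agent.P268.T

open Set Filter Topology Metric

/-! ### Pointwise facts on glued functions -/

section pt

variable {T E A : Type*} [Fintype A] [Nonempty A] {η : ℝ} {N : E → ℝ} {rho be : T → A → E → ℝ}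

/-- Pointwise version of `Glue.im_eq`. -/
theorem gim_eq_pt {τ : T} {x : E} (hη : 0 < η) (hn : 0 < N x) {a : A}
    (ha : -(η / 2) * N x < rho τ a x)
    (sep : ∀ b, -η * N x < rho τ b x → be τ b x = be τ a x) :
    gim η N rho be τ x = be τ a x := by
  have hw : η / 2 * N x < gwt η N rho τ a x := by
    refine lt_of_lt_of_le ?_ (le_max_left _ _)
    linarith
  have hsum : gwt η N rho τ a x ≤ ∑ b, gwt η N rho τ b x :=
    Finset.single_le_sum (f := fun b => gwt η N rho τ b x) (fun b _ => le_max_right _ _)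
      (Finset.mem_univ a)
  have hmax : max (∑ b, gwt η N rho τ b x) (η / 2 * N x) = ∑ b, gwt η N rho τ b x :=
    max_eq_left (hw.le.trans hsum)
  have hpos : 0 < ∑ b, gwt η N rho τ b x := by
    have : 0 < η / 2 * N x := by positivity
    linarith
  unfold gim
  rw [hmax, div_eq_iff hpos.ne', Finset.mul_sum]
  refine Finset.sum_congr rfl fun b _ => ?_
  have h00 : 0 ≤ gwt η N rho τ b x := le_max_right _ _
  rcases h00.eq_or_lt with h0 | h0
  · rw [← h0, zero_mul, mul_zero]
  · have hb : -η * N x < rho τ b x := by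
      rcases lt_max_iff.mp h0 with h1 | h1
      · linarith
      · exact absurd h1 (lt_irrefl _)
    rw [sep b hb, mul_comm]

theorem gfn_zero_iff_pt {τ : T} {x : E} (hη : 0 < η) (hn : 0 < N x)
    (sep : ∀ a b, -η * N x < rho τ a x → -η * N x < rho τ b x → be τ a x = be τ b x) :
    gfn η N rho be τ x = 0 ↔ (∀ a, rho τ a x ≤ 0) ∧ ∃ a, rho τ a x = 0 ∧ be τ a x = 0 := by
  have key : ∀ a, rho τ a x = 0 → gim η N rho be τ x = be τ a x := by
    intro a ha
    have h1 : 0 < η * N x := by positivity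
    exact gim_eq_pt hη hn (by linarith) fun b hb => sep b a hb (by linarith)
  constructor
  · intro h
    have h1 : gre rho τ x = 0 := congrArg Complex.re h
    have h2 : gim η N rho be τ x = 0 := congrArg Complex.im h
    refine ⟨fun a => (Finset.le_sup' (fun a => rho τ a x) (Finset.mem_univ a)).trans_eq h1, ?_⟩
    obtain ⟨a, -, ha⟩ := Finset.exists_mem_eq_sup' (Finset.univ_nonempty (α := A))
      (fun a => rho τ a x)
    have ha' : rho τ a x = 0 := ha.symm.trans h1
    exact ⟨a, ha', by rw [← key a ha', h2]⟩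
  · rintro ⟨h1, a, ha, hb⟩
    apply Complex.ext
    · show gre rho τ x = 0
      apply le_antisymm
      · exact Finset.sup'_le _ _ fun b _ => h1 b
      · rw [← ha]
        exact Finset.le_sup' (fun a => rho τ a x) (Finset.mem_univ a)
    · show gim η N rho be τ x = 0
      rw [key a ha, hb]

theorem gfn_congr_pt {rho' be' : T → A → E → ℝ} {τ τ' : T} {x : E}
    (h1 : ∀ a, rho τ a x = rho' τ' a x) (h2 : ∀ a, be τ a x = be' τ' a x) :
    gfn η N rho be τ x = gfn η N rho' be' τ' x := by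
  have e1 : gre rho τ x = gre rho' τ' x := by
    unfold gre
    simp only [h1]
  have e2 : gim η N rho be τ x = gim η N rho' be' τ' x := by
    unfold gim gwt
    simp only [h1, h2]
  unfold gfn
  rw [e1, e2]

end pt

/-! ### Data of the normal form -/

section data

variable {P V A : Type*} [NormedAddCommGroup P] [NormedSpace ℝ P]
  [NormedAddCommGroup V] [InnerProductSpace ℝ V] {e b₀ : V} {ε R M r₀ : ℝ} {b ν : A → P → V}

theorem BData.cb' (h : BData e b ν) (a : A) : ContinuousOn (b a) (closedBall 0 1) := by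
  have h1 := h.cb a
  have h2 : Continuous fun x : P => ((), x) := by fun_prop
  exact h1.comp h2.continuousOn fun x hx => ⟨mem_univ _, hx⟩

theorem BData.cn' (h : BData e b ν) (a : A) : ContinuousOn (ν a) (closedBall 0 1) := by
  have h1 := h.cn a
  have h2 : Continuous fun x : P => ((), x) := by fun_prop
  exact h1.comp h2.continuousOn fun x hx => ⟨mem_univ _, hx⟩

theorem continuousAt_comp_kap {f : P → V} (hf : ContinuousOn f (closedBall 0 1)) {s : ℝ × P}
    (hs : s ≠ 0) : ContinuousAt (fun s => f (kap s)) s := by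
  have h1 : Tendsto (kap : ℝ × P → P) (𝓝 s) (𝓝[closedBall 0 1] (kap s)) :=
    tendsto_nhdsWithin_iff.mpr ⟨continuousAt_kap hs, Eventually.of_forall fun x => kap_mem x⟩
  exact Tendsto.comp (hf (kap s) (kap_mem s)) h1

theorem continuous_cen_kap {f : P → V} (hf : ContinuousOn f (closedBall 0 1)) {K : ℝ}
    (hK : ∀ x ∈ closedBall (0 : P) 1, ‖f x‖ ≤ K) :
    Continuous fun s : ℝ × P => ‖s‖ • f (kap s) := by
  rw [continuous_iff_continuousAt]
  intro s
  by_cases hs : s = 0
  · subst hs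
    have h0 : (fun s : ℝ × P => ‖s‖ • f (kap s)) 0 = 0 := by simp
    have h1 : Tendsto (fun s : ℝ × P => ‖s‖ * K) (𝓝 0) (𝓝 0) := by
      have : Continuous fun s : ℝ × P => ‖s‖ * K := by fun_prop
      have h2 := this.tendsto 0
      simpa using h2
    have h3 : Tendsto (fun s : ℝ × P => ‖s‖ • f (kap s)) (𝓝 0) (𝓝 0) := by
      refine squeeze_zero_norm (fun s => ?_) h1
      rw [norm_smul, norm_norm]
      exact mul_le_mul_of_nonneg_left (hK _ (kap_mem s)) (norm_nonneg _)
    show Tendsto _ _ (𝓝 ((fun s : ℝ × P => ‖s‖ • f (kap s)) 0))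
    rw [h0]
    exact h3
  · exact continuous_norm.continuousAt.smul (continuousAt_comp_kap hf hs)

theorem cen_smul (f : P → V) {k : ℝ} (hk : 0 ≤ k) (s : ℝ × P) :
    ‖k • s‖ • f (kap (k • s)) = k • (‖s‖ • f (kap s)) := by
  rcases hk.eq_or_lt with rfl | hk'
  · simp
  · rw [kap_smul hk', norm_smul, Real.norm_eq_abs, abs_of_pos hk', smul_smul]

theorem Adm.hM0 (h : Adm ε R M b) : 0 < M := by
  have := h.hε; have := h.hR; have := h.hM; linarith

theorem Adm.of_far655 (h : Adm ε R M (farB b₀ b)) : Adm ε R M b where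
  hε := h.hε
  hR := h.hR
  hM := h.hM
  hb := fun a x hx => h.hb (some a) x hx
  hd := fun a a' haa' x hx => h.hd (some a) (some a') (by simpa using haa') x hx

theorem norm_prod_real (s : ℝ × P) : ‖s‖ = max |s.1| ‖s.2‖ := by
  rw [Prod.norm_def, Real.norm_eq_abs]

theorem norm_base_of_le {s : ℝ × P} (h : |s.1| ≤ ‖s.2‖) : ‖s‖ = ‖s.2‖ := by
  rw [norm_prod_real, max_eq_right h]

theorem norm_base_of_ge {s : ℝ × P} (h : ‖s.2‖ ≤ |s.1|) : ‖s‖ = |s.1| := by
  rw [norm_prod_real, max_eq_left h]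

theorem base_pos {s : ℝ × P} (hs : s ≠ 0) : 0 < ‖s‖ := norm_pos_iff.mpr hs

/-- Near the slab the sheets are flat. -/
theorem flat_key (hM : 8 * ε ≤ M) (hε : 0 < ε) {s : ℝ × P} (hs : s ≠ 0)
    (h1 : -ε * ‖s‖ < M * (‖s.2‖ - s.1)) (h2 : -ε * ‖s‖ < M * (s.1 - ‖s.2‖ / 2)) :
    |s.1| ≤ 2 * ‖s.2‖ ∧ s.2 ≠ 0 := by
  have hm := base_pos hs
  have hM0 : 0 < M := by linarith
  have hp := norm_nonneg s.2
  have e1 : -(‖s‖ / 8) < ‖s.2‖ - s.1 := by
    have : M * (-(‖s‖ / 8)) < M * (‖s.2‖ - s.1) := by nlinarith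
    exact lt_of_mul_lt_mul_left this hM0.le
  have e2 : -(‖s‖ / 8) < s.1 - ‖s.2‖ / 2 := by
    have : M * (-(‖s‖ / 8)) < M * (s.1 - ‖s.2‖ / 2) := by nlinarith
    exact lt_of_mul_lt_mul_left this hM0.le
  rcases le_total |s.1| ‖s.2‖ with h | h
  · refine ⟨by linarith, fun h0 => ?_⟩
    rw [norm_base_of_le h, h0, norm_zero] at hm
    exact lt_irrefl _ hm
  · rw [norm_base_of_ge h] at e1 e2 hm
    rcases le_total 0 s.1 with h0 | h0
    · rw [abs_of_nonneg h0] at *
      refine ⟨by linarith, fun h3 => ?_⟩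
      rw [h3, norm_zero] at e1
      linarith
    · rw [abs_of_nonpos h0] at *
      exfalso
      linarith

theorem flat_be (hd : BData e b ν) {s : ℝ × P} (h : |s.1| ≤ 2 * ‖s.2‖ ∧ s.2 ≠ 0) (a : A) (v : V) :
    inner ℝ (v - ‖s‖ • b a (kap s)) (ν a (kap s)) = inner ℝ v e := by
  have h1 := norm_kap_of_le h.1 h.2
  rw [hd.nh () (mem_univ _) a _ h1, inner_sub_left, real_inner_smul_left,
    hd.bh () (mem_univ _) a _ h1, mul_zero, sub_zero]

theorem sheets_sep (ad : Adm ε R M b) {s : ℝ × P} {a a' : A} (hne : a ≠ a') (hs : s ≠ 0) (v : V)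
    (h1 : -ε * ‖s‖ < ε * ‖s‖ - ‖v - ‖s‖ • b a (kap s)‖)
    (h2 : -ε * ‖s‖ < ε * ‖s‖ - ‖v - ‖s‖ • b a' (kap s)‖) : False := by
  have hm := base_pos hs
  have h3 := ad.hd a a' hne _ (kap_mem s)
  have h4 : ‖‖s‖ • (b a (kap s) - b a' (kap s))‖ ≤
      ‖v - ‖s‖ • b a' (kap s)‖ + ‖v - ‖s‖ • b a (kap s)‖ := by
    have e : ‖s‖ • (b a (kap s) - b a' (kap s)) =
        (v - ‖s‖ • b a' (kap s)) - (v - ‖s‖ • b a (kap s)) := by
      rw [smul_sub]; abel
    rw [e]
    exact norm_sub_le _ _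
  rw [norm_smul, norm_norm] at h4
  have h5 : ‖s‖ * (4 * ε) ≤ ‖s‖ * ‖b a (kap s) - b a' (kap s)‖ :=
    mul_le_mul_of_nonneg_left h3 hm.le
  linarith

/-! ### The plates of `KA` and `NN` -/

section plates

variable [Fintype A]

/-- The plates of `KA`. -/
noncomputable abbrev KP (e : V) (ε R M : ℝ) (b ν : A → P → V) :
    SheetData Unit ((ℝ × P) × V) V (Option A) :=
  kplates e (fun _ : Unit => ε) (fun _ => R) (fun _ => M) (fun _ => b) (fun _ => ν)

/-- The plates of `NN`. -/
noncomputable abbrev NP (e : V) (ε R M : ℝ) (b ν : A → P → V) :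
    SheetData Unit ((ℝ × P) × V) V (Option A) :=
  nplates e (fun _ : Unit => ε) (fun _ => R) (fun _ => M) (fun _ => b) (fun _ => ν)

theorem KP_none (x : (ℝ × P) × V) : (KP e ε R M b ν).rho () none x =
    min (R * ‖x.1‖ - ‖x.2‖) (M * (‖x.1.2‖ - x.1.1)) := rfl

theorem KP_some (a : A) (x : (ℝ × P) × V) : (KP e ε R M b ν).rho () (some a) x =
    min (ε * ‖x.1‖ - ‖x.2 - ‖x.1‖ • b a (kap x.1)‖) (M * (x.1.1 - ‖x.1.2‖ / 2)) := rfl

theorem NP_none (x : (ℝ × P) × V) : (NP e ε R M b ν).rho () none x =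
    min (R * ‖x.1‖ - ‖x.2‖) (M * (‖x.1.2‖ - |x.1.1|)) := rfl

theorem NP_some (a : A) (x : (ℝ × P) × V) : (NP e ε R M b ν).rho () (some a) x =
    min (ε * ‖x.1‖ - ‖x.2 - ‖x.1‖ • b a (kap x.1)‖) (M * (x.1.1 - ‖x.1.2‖ / 2)) := rfl

theorem KP_be_none (x : (ℝ × P) × V) : (KP e ε R M b ν).be () none x = inner ℝ x.2 e := rfl

theorem KP_be_some (a : A) (x : (ℝ × P) × V) : (KP e ε R M b ν).be () (some a) x =
    inner ℝ (x.2 - ‖x.1‖ • b a (kap x.1)) (ν a (kap x.1)) := rfl

theorem NP_be_none (x : (ℝ × P) × V) : (NP e ε R M b ν).be () none x = inner ℝ x.2 e := rfl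

theorem NP_be_some (a : A) (x : (ℝ × P) × V) : (NP e ε R M b ν).be () (some a) x =
    inner ℝ (x.2 - ‖x.1‖ • b a (kap x.1)) (ν a (kap x.1)) := rfl

theorem KP_sep (ad : Adm ε R M b) (hd : BData e b ν) {x : (ℝ × P) × V} (hx : x.1 ≠ 0)
    (a a' : Option A) (h1 : -ε * ‖x.1‖ < (KP e ε R M b ν).rho () a x)
    (h2 : -ε * ‖x.1‖ < (KP e ε R M b ν).rho () a' x) :
    (KP e ε R M b ν).be () a x = (KP e ε R M b ν).be () a' x := by
  have hε := ad.hε
  have hM : 8 * ε ≤ M := by have := ad.hR; have := ad.hM; linarith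
  rcases a with _ | a <;> rcases a' with _ | a'
  · rfl
  · rw [KP_none] at h1
    rw [KP_some] at h2
    rw [KP_be_none, KP_be_some, flat_be hd (flat_key hM hε hx (h1.trans_le (min_le_right _ _))
      (h2.trans_le (min_le_right _ _)))]
  · rw [KP_none] at h2
    rw [KP_some] at h1
    rw [KP_be_none, KP_be_some, flat_be hd (flat_key hM hε hx (h2.trans_le (min_le_right _ _))
      (h1.trans_le (min_le_right _ _)))]
  · by_cases hne : a = a'
    · rw [hne]
    · exfalso
      rw [KP_some] at h1 h2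
      exact sheets_sep ad hne hx x.2 (h1.trans_le (min_le_left _ _))
        (h2.trans_le (min_le_left _ _))

theorem NP_none_le (hM : 0 ≤ M) (x : (ℝ × P) × V) :
    (NP e ε R M b ν).rho () none x ≤ (KP e ε R M b ν).rho () none x := by
  rw [KP_none, NP_none]
  refine min_le_min le_rfl (mul_le_mul_of_nonneg_left ?_ hM)
  have := le_abs_self x.1.1
  linarith

theorem NP_sep (ad : Adm ε R M b) (hd : BData e b ν) {x : (ℝ × P) × V} (hx : x.1 ≠ 0)
    (a a' : Option A) (h1 : -ε * ‖x.1‖ < (NP e ε R M b ν).rho () a x)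
    (h2 : -ε * ‖x.1‖ < (NP e ε R M b ν).rho () a' x) :
    (NP e ε R M b ν).be () a x = (NP e ε R M b ν).be () a' x := by
  have hle : ∀ c, (NP e ε R M b ν).rho () c x ≤ (KP e ε R M b ν).rho () c x := by
    rintro (_ | c)
    · exact NP_none_le ad.hM0.le x
    · exact le_rfl
  have h3 := KP_sep ad hd hx a a' (h1.trans_le (hle a)) (h2.trans_le (hle a'))
  have hbe : ∀ c, (NP e ε R M b ν).be () c x = (KP e ε R M b ν).be () c x := by
    rintro (_ | c) <;> rfl
  rw [hbe, hbe, h3]

theorem tp_neg_of_base (_ad : Adm ε R M b) {x : (ℝ × P) × V} (hx : x ≠ 0) (hN : ‖x.1‖ = 0)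
    (a : Option A) : (KP e ε R M b ν).rho () a x < 0 := by
  have h1 : x.1 = 0 := norm_eq_zero.mp hN
  have h2 : x.2 ≠ 0 := fun h2 => hx (Prod.ext h1 h2)
  have h3 : 0 < ‖x.2‖ := norm_pos_iff.mpr h2
  rcases a with _ | a
  · rw [KP_none, hN]
    exact (min_le_left _ _).trans_lt (by linarith)
  · rw [KP_some, hN]
    refine (min_le_left _ _).trans_lt ?_
    rw [zero_smul, sub_zero]
    linarith

/-- The global conditions for the plates of `KA`. -/
theorem KP_base (he : ‖e‖ = 1) (ad : Adm ε R M b) (hd : BData e b ν) :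
    (KP e ε R M b ν).Base univ ε (fun x => ‖x.1‖) where
  hη := ad.hε
  cN := by fun_prop
  nN := fun x => norm_nonneg _
  hN := fun k hk x => by rw [Prod.smul_fst, norm_smul, Real.norm_eq_abs, abs_of_nonneg hk]
  cw := fun a => by
    refine Continuous.continuousOn ?_
    rcases a with _ | a
    · show Continuous fun p : Unit × ((ℝ × P) × V) => p.2.2
      fun_prop
    · show Continuous fun p : Unit × ((ℝ × P) × V) => p.2.2 - ‖p.2.1‖ • b a (kap p.2.1)
      have h1 := continuous_cen_kap (hd.cb' a) (K := R) fun x hx => by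
        have := ad.hb a x hx; have := ad.hε; linarith
      have h2 : Continuous fun p : Unit × ((ℝ × P) × V) => p.2.1 := by fun_prop
      exact (continuous_snd.comp continuous_snd).sub (h1.comp h2)
  cr := fun a => by
    refine Continuous.continuousOn ?_
    rcases a with _ | a
    · show Continuous fun p : Unit × ((ℝ × P) × V) => R * ‖p.2.1‖
      fun_prop
    · show Continuous fun p : Unit × ((ℝ × P) × V) => ε * ‖p.2.1‖
      fun_prop
  cs := fun a => by
    refine Continuous.continuousOn ?_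
    rcases a with _ | a
    · show Continuous fun p : Unit × ((ℝ × P) × V) => M * (‖p.2.1.2‖ - p.2.1.1)
      fun_prop
    · show Continuous fun p : Unit × ((ℝ × P) × V) => M * (p.2.1.1 - ‖p.2.1.2‖ / 2)
      fun_prop
  cn := fun a => by
    rcases a with _ | a
    · show ContinuousOn (fun _ : Unit × ((ℝ × P) × V) => e) _
      exact continuousOn_const
    · show ContinuousOn (fun p : Unit × ((ℝ × P) × V) => ν a (kap p.2.1)) _
      rintro ⟨t, x⟩ ⟨-, hx⟩
      have hx' : x.1 ≠ 0 := fun h => hx (by show ‖x.1‖ = 0; rw [h, norm_zero])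
      have h2 : ContinuousAt (fun p : Unit × ((ℝ × P) × V) => p.2.1) (t, x) := by fun_prop
      exact (ContinuousAt.comp (g := fun s => ν a (kap s))
        (f := fun p : Unit × ((ℝ × P) × V) => p.2.1)
        (continuousAt_comp_kap (hd.cn' a) hx') h2).continuousWithinAt
  hw := fun _ _ a k hk x => by
    rcases a with _ | a
    · rfl
    · show k • x.2 - ‖k • x.1‖ • b a (kap (k • x.1)) = k • (x.2 - ‖x.1‖ • b a (kap x.1))
      rw [cen_smul _ hk, smul_sub]
  hr := fun _ _ a k hk x => by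
    have h1 : ‖k • x.1‖ = k * ‖x.1‖ := by rw [norm_smul, Real.norm_eq_abs, abs_of_nonneg hk]
    rcases a with _ | a
    · show R * ‖k • x.1‖ = k * (R * ‖x.1‖)
      rw [h1]; ring
    · show ε * ‖k • x.1‖ = k * (ε * ‖x.1‖)
      rw [h1]; ring
  hs := fun _ _ a k hk x => by
    have h1 : ‖k • x.1.2‖ = k * ‖x.1.2‖ := by rw [norm_smul, Real.norm_eq_abs, abs_of_nonneg hk]
    rcases a with _ | a
    · show M * (‖k • x.1.2‖ - k * x.1.1) = k * (M * (‖x.1.2‖ - x.1.1))
      rw [h1]; ring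
    · show M * (k * x.1.1 - ‖k • x.1.2‖ / 2) = k * (M * (x.1.1 - ‖x.1.2‖ / 2))
      rw [h1]; ring
  hn := fun _ _ a k hk x => by
    rcases a with _ | a
    · rfl
    · show ν a (kap (k • x.1)) = ν a (kap x.1)
      rw [kap_smul hk]
  nn := fun _ _ a x _ => by
    rcases a with _ | a
    · exact he
    · exact hd.nn () (mem_univ _) a _ (kap_mem _)
  neg := fun _ _ a x hx hN => tp_neg_of_base ad hx hN a
  sep := fun _ _ x hx a a' h1 h2 =>
    KP_sep ad hd (fun h => hx (by show ‖x.1‖ = 0; rw [h, norm_zero])) a a' h1 h2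

end plates

end data

end Vale.Agent.P268.T
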