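import Vale.Agent.P268.T.H655.Ends

/-!
# P268, topological half, block B4b: the two ends of the swing (statements)

`F = KA e ε R M b ν`, `G = NN e ε R M (farB b₀ b) (farN e ν)`, cone `U = swU (3 * r₀)`.
-/

set_option linter.unusedSectionVars false

namespace Vale.Agent.P268.T

open Set Filter Topology Metric

variable {P V A : Type*} [NormedAddCommGroup P] [NormedSpace ℝ P]
  [NormedAddCommGroup V] [InnerProductSpace ℝ V] [Fintype A]
  {e b₀ : V} {ε R M r₀ : ℝ} {b ν : A → P → V}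

theorem KA_eq (x : (ℝ × P) × V) : KA e ε R M b ν x =
    gfn ε (fun x : (ℝ × P) × V => ‖x.1‖) (KP e ε R M b ν).rho (KP e ε R M b ν).be () x := rfl

theorem NN_eq (x : (ℝ × P) × V) : NN e ε R M b ν x =
    gfn ε (fun x : (ℝ × P) × V => ‖x.1‖) (NP e ε R M b ν).rho (NP e ε R M b ν).be () x := rfl

theorem KA_re (x : (ℝ × P) × V) : (KA e ε R M b ν x).re = gre (KP e ε R M b ν).rho () x := rfl

theorem KA_im (x : (ℝ × P) × V) : (KA e ε R M b ν x).im =
    gim ε (fun x : (ℝ × P) × V => ‖x.1‖) (KP e ε R M b ν).rho (KP e ε R M b ν).be () x := rfl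

/-- Hypotheses of the swing. -/
structure EndH (e b₀ : V) (ε R M r₀ : ℝ) (b ν : A → P → V) : Prop where
  he : ‖e‖ = 1
  hd : BData e b ν
  h0 : inner ℝ b₀ e = 0
  hr : 2 ≤ r₀
  hB : ∀ a, ∀ x ∈ closedBall (0 : P) 1, 2 * (‖b a x‖ + ε) ≤ r₀
  h2e : 2 * ε ≤ r₀
  hb0 : 6 * r₀ ≤ ‖b₀‖
  ad : Adm ε R M (farB b₀ b)

theorem swC_subset (hr : 2 ≤ r₀) {x : (ℝ × P) × V} (hx : x ≠ 0) (h : x ∈ swC r₀) :
    x ∈ swU (3 * r₀) := by
  obtain ⟨h1, h2⟩ := h
  have hp := norm_nonneg x.1.2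
  have hv := norm_nonneg x.2
  have hr0 : 0 < r₀ := by linarith
  have hu : 0 ≤ x.1.1 := by
    by_contra hn
    nlinarith [mul_pos_of_neg_of_neg (not_le.mp hn) (by linarith : -r₀ < 0)]
  have hu' : 0 < x.1.1 := by
    rcases hu.eq_or_lt with h0 | h0
    · exfalso
      rw [← h0, mul_zero] at h1 h2
      have e1 : x.1.2 = 0 := norm_le_zero_iff.mp h1
      have e2 : x.2 = 0 := norm_le_zero_iff.mp h2
      exact hx (Prod.ext (Prod.ext h0.symm e1) e2)
    · exact h0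
  have hru : 0 < r₀ * x.1.1 := mul_pos hr0 hu'
  exact ⟨by linarith, by linarith⟩

theorem swU_pos (hr : 2 ≤ r₀) {x : (ℝ × P) × V} (h : x ∈ swU (3 * r₀)) : 0 < x.1.1 := by
  by_contra hn
  have h1 := h.1
  have hp := norm_nonneg x.1.2
  nlinarith

/-- The sheets are negative off the small cone. -/
theorem sheet_neg (hr : 2 ≤ r₀) (hε : 0 < ε) (hM : 0 < M)
    (hB : ∀ a, ∀ x ∈ closedBall (0 : P) 1, 2 * (‖b a x‖ + ε) ≤ r₀) {x : (ℝ × P) × V}
    (hx : x ∉ swC r₀) (a : A) : (KP e ε R M b ν).rho () (some a) x < 0 := by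
  by_contra hn
  rw [not_lt, KP_some, le_min_iff] at hn
  obtain ⟨h1, h2⟩ := hn
  have hp := norm_nonneg x.1.2
  have h3 : 0 ≤ x.1.1 - ‖x.1.2‖ / 2 := nonneg_of_mul_nonneg_right h2 hM
  have hu : 0 ≤ x.1.1 := by linarith
  have hs : ‖x.1‖ ≤ 2 * x.1.1 := by
    rw [norm_prod_real, abs_of_nonneg hu]
    exact max_le (by linarith) (by linarith)
  have h4 := hB a _ (kap_mem x.1)
  have h5 : ‖x.2‖ ≤ ‖x.2 - ‖x.1‖ • b a (kap x.1)‖ + ‖x.1‖ * ‖b a (kap x.1)‖ := by
    have e1 : x.2 = (x.2 - ‖x.1‖ • b a (kap x.1)) + ‖x.1‖ • b a (kap x.1) := by abel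
    calc ‖x.2‖ = ‖(x.2 - ‖x.1‖ • b a (kap x.1)) + ‖x.1‖ • b a (kap x.1)‖ := by rw [← e1]
      _ ≤ _ := norm_add_le _ _
      _ = _ := by rw [norm_smul ‖x.1‖, norm_norm]
  have hs0 := norm_nonneg x.1
  have h6 : ‖x.2‖ ≤ ‖x.1‖ * (‖b a (kap x.1)‖ + ε) := by nlinarith
  have h7 : ‖x.1‖ * (‖b a (kap x.1)‖ + ε) ≤ 2 * x.1.1 * (r₀ / 2) := by
    have i1 : ‖b a (kap x.1)‖ + ε ≤ r₀ / 2 := by linarith
    have i2 : 0 ≤ ‖b a (kap x.1)‖ + ε := by positivity
    exact mul_le_mul hs i1 i2 (by linarith)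
  refine hx ⟨?_, by linarith⟩
  have : 2 * x.1.1 ≤ r₀ * x.1.1 := mul_le_mul_of_nonneg_right hr hu
  linarith

namespace EndH

theorem ad' (h : EndH e b₀ ε R M r₀ b ν) : Adm ε R M b := h.ad.of_far655

theorem hε (h : EndH e b₀ ε R M r₀ b ν) : 0 < ε := h.ad.hε

theorem hM (h : EndH e b₀ ε R M r₀ b ν) : 0 < M := h.ad.hM0

theorem hRb (h : EndH e b₀ ε R M r₀ b ν) : ‖b₀‖ + 2 * ε < R :=
  h.ad.hb none 0 (by simp)

theorem hMR (h : EndH e b₀ ε R M r₀ b ν) : 8 * R ≤ M := by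
  have := h.ad.hM; have := h.ad.hR; have := h.ad.hε; linarith

theorem hR0 (h : EndH e b₀ ε R M r₀ b ν) : 0 < R := by
  have := h.hRb; have := h.hε; have := norm_nonneg b₀; linarith

/-- The data with the far sheet. -/
theorem bdata (h : EndH e b₀ ε R M r₀ b ν) : BData e (farB b₀ b) (farN e ν) where
  cb := by
    rintro (_ | a)
    · exact continuousOn_const
    · exact h.hd.cb a
  cn := by
    rintro (_ | a)
    · exact continuousOn_const
    · exact h.hd.cn a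
  nn := by
    rintro t ht (_ | a) x hx
    · exact h.he
    · exact h.hd.nn t ht a x hx
  inj := by
    have hne : ∀ (a : A), ∀ x ∈ closedBall (0 : P) 1, b a x ≠ b₀ := by
      intro a x hx hab
      have h1 := h.hB a x hx
      have h2 := h.hb0
      have h3 := h.hr
      have h4 := h.hε
      rw [hab] at h1
      linarith
    rintro t ht x hx (_ | a) (_ | a') haa
    · rfl
    · exact absurd haa.symm (hne a' x hx)
    · exact absurd haa (hne a x hx)
    · rw [h.hd.inj t ht x hx haa]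
  bh := by
    rintro t ht (_ | a) x hx
    · exact h.h0
    · exact h.hd.bh t ht a x hx
  nh := by
    rintro t ht (_ | a) x hx
    · rfl
    · exact h.hd.nh t ht a x hx

theorem KP_cont (h : EndH e b₀ ε R M r₀ b ν) (a : Option A) :
    Continuous fun y => (KP e ε R M b ν).rho () a y := by
  have h1 := (KP_base h.he h.ad' h.hd).glue.cr a
  rw [univ_prod_univ, continuousOn_univ] at h1
  have h2 : Continuous fun x : (ℝ × P) × V => ((), x) := by fun_prop
  exact Continuous.comp (g := fun p : Unit × ((ℝ × P) × V) => (KP e ε R M b ν).rho p.1 a p.2)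
    (f := fun x : (ℝ × P) × V => ((), x)) h1 h2

/-- (F0) -/
theorem F_cont (h : EndH e b₀ ε R M r₀ b ν) : Continuous (KA e ε R M b ν) := by
  have h1 := (KP_base h.he h.ad' h.hd).glue.continuousOn_fn
  rw [univ_prod_univ, continuousOn_univ] at h1
  have h2 : Continuous fun x : (ℝ × P) × V => ((), x) := by fun_prop
  have h3 : KA e ε R M b ν = (fun p : Unit × ((ℝ × P) × V) =>
      gfn ε (fun x : (ℝ × P) × V => ‖x.1‖) (KP e ε R M b ν).rho (KP e ε R M b ν).be p.1 p.2) ∘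
      fun x : (ℝ × P) × V => ((), x) := by
    funext x
    rw [KA_eq, Function.comp_apply]
  rw [h3]
  exact h1.comp h2

/-- (F0) -/
theorem F_hom (h : EndH e b₀ ε R M r₀ b ν) : Hom1 (KA e ε R M b ν) :=
  (KP_base h.he h.ad' h.hd).glue.hom1 (mem_univ ())

/-- (F1) -/
theorem F_eq_NN (h : EndH e b₀ ε R M r₀ b ν) {x : (ℝ × P) × V} (hx : x ∈ swU (3 * r₀)) :
    KA e ε R M b ν x = NN e ε R M b ν x := by
  have hu := swU_pos h.hr hx
  rw [KA_eq, NN_eq]
  refine gfn_congr_pt ?_ ?_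
  · rintro (_ | a)
    · show (KP e ε R M b ν).rho () none x = (NP e ε R M b ν).rho () none x
      rw [KP_none, NP_none, abs_of_pos hu]
    · rfl
  · rintro (_ | a) <;> rfl

/-- (F3) -/
theorem F_ge (h : EndH e b₀ ε R M r₀ b ν) (x : (ℝ × P) × V) :
    slab₁ M R x ≤ (KA e ε R M b ν x).re := by
  have h1 : (KP e ε R M b ν).rho () none x ≤ (KA e ε R M b ν x).re := by
    rw [KA_re]
    exact gre_ge (rho := (KP e ε R M b ν).rho) () none x
  refine le_trans ?_ h1
  rw [KP_none, slab₁]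
  have h2 : ‖x.1.2‖ ≤ ‖x.1‖ := norm_snd_le x.1
  have h3 : R * ‖x.1.2‖ ≤ R * ‖x.1‖ := mul_le_mul_of_nonneg_left h2 h.hR0.le
  exact le_min ((min_le_right _ _).trans (by linarith)) (min_le_left _ _)

/-- (F2) -/
theorem F_near (h : EndH e b₀ ε R M r₀ b ν) {x : (ℝ × P) × V} (hx : x ∈ swU (3 * r₀))
    (hxC : x ∉ swC r₀) (h0 : 0 ≤ (KA e ε R M b ν x).re) :
    ∀ᶠ y in 𝓝 x, KA e ε R M b ν y = ⟨slab₁ M R y, inner ℝ y.2 e⟩ := by
  have hu := swU_pos h.hr hx
  have hM := h.hM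
  have hR := h.hR0
  have hε := h.hε
  have B := KP_base h.he h.ad' h.hd
  have hs : x.1 ≠ 0 := fun hs => by rw [hs] at hu; exact lt_irrefl _ hu
  have hN : ‖x.1‖ ≠ 0 := norm_ne_zero_iff.mpr hs
  have hneg : ∀ a : A, (KP e ε R M b ν).rho () (some a) x < 0 :=
    fun a => sheet_neg h.hr hε hM h.hB hxC a
  -- the slab is active
  have h1 : 0 ≤ (KP e ε R M b ν).rho () none x := by
    obtain ⟨a, ha⟩ := exists_gre (KP e ε R M b ν).rho () x
    have h2 : 0 ≤ (KP e ε R M b ν).rho () a x := by rw [← ha, ← KA_re]; exact h0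
    rcases a with _ | a
    · exact h2
    · exact absurd (hneg a) (not_lt.mpr h2)
  have cr := h.KP_cont
  have ev1 : ∀ᶠ y in 𝓝 x, ∀ a : A,
      (KP e ε R M b ν).rho () (some a) y < (KP e ε R M b ν).rho () none y := by
    rw [eventually_all]
    intro a
    exact ((cr (some a)).tendsto x).eventually_lt ((cr none).tendsto x) ((hneg a).trans_le h1)
  have ev2 : ∀ᶠ y in 𝓝 x, -(ε / 2) * ‖y.1‖ < (KP e ε R M b ν).rho () none y := by
    have c : Continuous fun y : (ℝ × P) × V => -(ε / 2) * ‖y.1‖ := by fun_prop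
    refine (c.tendsto x).eventually_lt ((cr none).tendsto x) (lt_of_lt_of_le ?_ h1)
    have : 0 < ε / 2 * ‖x.1‖ := by have := base_pos hs; positivity
    linarith
  have ev3 : ∀ᶠ y : (ℝ × P) × V in 𝓝 x, 0 < y.1.1 := by
    have c : Continuous fun y : (ℝ × P) × V => y.1.1 := by fun_prop
    exact (c.tendsto x).eventually (lt_mem_nhds hu)
  rw [KP_none, le_min_iff] at h1
  obtain ⟨h2, h3⟩ := h1
  have h3' : x.1.1 ≤ ‖x.1.2‖ := by
    have := nonneg_of_mul_nonneg_right h3 hM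
    linarith
  have ev4 : ∀ᶠ y : (ℝ × P) × V in 𝓝 x, y.1.1 < ‖y.1.2‖ ∨ 0 < R * ‖y.1.2‖ - ‖y.2‖ := by
    have c1 : Continuous fun y : (ℝ × P) × V => y.1.1 := by fun_prop
    have c2 : Continuous fun y : (ℝ × P) × V => ‖y.1.2‖ := by fun_prop
    have c3 : Continuous fun y : (ℝ × P) × V => R * ‖y.1.2‖ - ‖y.2‖ := by fun_prop
    rcases h3'.lt_or_eq with h4 | h4
    · exact ((c1.tendsto x).eventually_lt (c2.tendsto x) h4).mono fun y hy => Or.inl hy
    · have h5 : 0 < R * ‖x.1.2‖ - ‖x.2‖ := by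
        rw [← h4]
        have h6 := hx.2
        have h7 : 3 * r₀ < R := by
          have := h.hRb; have := h.hb0; have := h.hr; linarith
        have h8 : 3 * r₀ * x.1.1 < R * x.1.1 := mul_lt_mul_of_pos_right h7 hu
        linarith
      exact ((c3.tendsto x).eventually (lt_mem_nhds h5)).mono fun y hy => Or.inr hy
  filter_upwards [ev1, ev2, ev3, ev4] with y h1 h2 h3 h4
  have hys : y.1 ≠ 0 := fun hs => by rw [hs] at h3; exact lt_irrefl _ h3
  have hre : (KA e ε R M b ν y).re = (KP e ε R M b ν).rho () none y := by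
    rw [KA_re]
    apply le_antisymm
    · obtain ⟨a, ha⟩ := exists_gre (KP e ε R M b ν).rho () y
      rw [ha]
      rcases a with _ | a
      · exact le_rfl
      · exact (h1 a).le
    · exact gre_ge (rho := (KP e ε R M b ν).rho) () none y
  have him : (KA e ε R M b ν y).im = inner ℝ y.2 e := by
    rw [KA_im, B.glue.im_eq (mem_univ ()) (norm_ne_zero_iff.mpr hys) h2, KP_be_none]
  have hsl : (KP e ε R M b ν).rho () none y = slab₁ M R y := by
    rw [KP_none, slab₁]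
    rcases le_or_gt y.1.1 ‖y.1.2‖ with h5 | h5
    · rw [norm_base_of_le (s := y.1) (by rw [abs_of_pos h3]; exact h5), min_comm]
    · have h6 : 0 < R * ‖y.1.2‖ - ‖y.2‖ := h4.resolve_left (not_lt.mpr h5.le)
      have h7 : M * (‖y.1.2‖ - y.1.1) < 0 := mul_neg_of_pos_of_neg hM (by linarith)
      have h8 : R * ‖y.1.2‖ ≤ R * ‖y.1‖ :=
        mul_le_mul_of_nonneg_left (norm_snd_le y.1) hR.le
      rw [min_eq_right (by linarith), min_eq_left (by linarith)]
  apply Complex.ext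
  · show _ = slab₁ M R y
    rw [hre, hsl]
  · exact him

end EndH

end Vale.Agent.P268.T
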