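import Vale.Agent.P268.T.H655.Ends2

/-!
# P268, topological half, block B4b: zero sets of the two ends of the swing
-/

set_option linter.unusedSectionVars false

namespace Vale.Agent.P268.T

open Set Filter Topology Metric

variable {P V A : Type*} [NormedAddCommGroup P] [NormedSpace ℝ P]
  [NormedAddCommGroup V] [InnerProductSpace ℝ V] [Fintype A]
  {e b₀ : V} {ε R M r₀ : ℝ} {b ν : A → P → V}

/-- The sign of the slab of `KA`. -/
theorem KP_none_zero (hR : 0 < R) (hM : R ≤ M) {x : (ℝ × P) × V} :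
    (KP e ε R M b ν).rho () none x = 0 ↔ max (slab₁ M R x) (-R * x.1.1 - ‖x.2‖) = 0 := by
  rw [KP_none, slab₁]
  have hp := norm_nonneg x.1.2
  have hv := norm_nonneg x.2
  have hM0 : 0 < M := hR.trans_le hM
  rcases le_or_gt x.1.1 0 with hu | hu
  · have h1 : ‖x.1‖ ≤ ‖x.1.2‖ - x.1.1 := by
      rw [norm_prod_real, abs_of_nonpos hu]
      exact max_le (by linarith) (by linarith)
    have h2 : R * ‖x.1‖ ≤ M * (‖x.1.2‖ - x.1.1) :=
      mul_le_mul hM h1 (norm_nonneg _) hM0.le
    have h3 : R * ‖x.1.2‖ ≤ R * ‖x.1‖ := mul_le_mul_of_nonneg_left (norm_snd_le x.1) hR.le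
    rw [min_eq_left (by linarith), min_eq_right (by linarith)]
    have h4 : max (R * ‖x.1.2‖ - ‖x.2‖) (-R * x.1.1 - ‖x.2‖) = R * ‖x.1‖ - ‖x.2‖ := by
      rw [norm_prod_real x.1, abs_of_nonpos hu, mul_max_of_nonneg _ _ hR.le, max_sub_sub_right,
        max_comm]
      congr 1
      ring_nf
    rw [h4]
  · have h1 : -R * x.1.1 - ‖x.2‖ < 0 := by nlinarith
    rcases le_or_gt x.1.1 ‖x.1.2‖ with h2 | h2
    · rw [norm_base_of_le (s := x.1) (by rw [abs_of_pos hu]; exact h2), min_comm]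
      constructor
      · intro h3
        rw [h3, max_eq_left h1.le]
      · intro h3
        rcases max_choice (min (M * (‖x.1.2‖ - x.1.1)) (R * ‖x.1.2‖ - ‖x.2‖))
          (-R * x.1.1 - ‖x.2‖) with h4 | h4
        · rw [← h4, h3]
        · rw [h4] at h3
          exact absurd h3 h1.ne
    · have h3 : M * (‖x.1.2‖ - x.1.1) < 0 := mul_neg_of_pos_of_neg hM0 (by linarith)
      constructor
      · intro h4
        exact absurd h4 ((min_le_right _ _).trans_lt h3).ne
      · intro h4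
        exact absurd h4 (max_lt ((min_le_left _ _).trans_lt h3) h1).ne

namespace EndH

/-- (F4) -/
theorem F_zero_off (h : EndH e b₀ ε R M r₀ b ν) {x : (ℝ × P) × V} (hx : x ∉ swU (3 * r₀))
    (hx0 : x ≠ 0) : KA e ε R M b ν x = 0 ↔
      inner ℝ x.2 e = 0 ∧ max (slab₁ M R x) (-R * x.1.1 - ‖x.2‖) = 0 := by
  have hM := h.hM
  have hR := h.hR0
  have hneg : ∀ a : A, (KP e ε R M b ν).rho () (some a) x < 0 :=
    fun a => sheet_neg h.hr h.hε hM h.hB (fun hC => hx (swC_subset h.hr hx0 hC)) a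
  have hMR : R ≤ M := by have := h.hMR; linarith
  rw [← KP_none_zero (e := e) (ε := ε) (b := b) (ν := ν) hR hMR, KA_eq]
  by_cases hs : x.1 = 0
  · have hN : ‖x.1‖ = 0 := by rw [hs, norm_zero]
    constructor
    · intro h1
      exfalso
      have h2 : gre (KP e ε R M b ν).rho () x = 0 := congrArg Complex.re h1
      obtain ⟨a, ha⟩ := exists_gre (KP e ε R M b ν).rho () x
      have h3 := tp_neg_of_base (e := e) (ν := ν) h.ad' hx0 hN a
      rw [← ha, h2] at h3
      exact lt_irrefl _ h3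
    · rintro ⟨-, h1⟩
      exact absurd h1 (tp_neg_of_base (e := e) (ν := ν) h.ad' hx0 hN none).ne
  · rw [gfn_zero_iff_pt h.hε (N := fun x : (ℝ × P) × V => ‖x.1‖) (base_pos hs)
      fun a a' => KP_sep h.ad' h.hd hs a a']
    constructor
    · rintro ⟨-, a, h1, h2⟩
      rcases a with _ | a
      · rw [KP_be_none] at h2
        exact ⟨h2, h1⟩
      · exact absurd h1 (hneg a).ne
    · rintro ⟨h1, h2⟩
      refine ⟨?_, none, h2, h1⟩
      rintro (_ | a)
      · exact h2.le
      · exact (hneg a).le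

/-- The far sheet is negative on the cone. -/
theorem far_neg (h : EndH e b₀ ε R M r₀ b ν) {x : (ℝ × P) × V} (hx : x ∈ swU (3 * r₀)) :
    (NP e ε R M (farB b₀ b) (farN e ν)).rho () (some none) x < 0 := by
  have hu := swU_pos h.hr hx
  rw [NP_some]
  refine (min_le_left _ _).trans_lt ?_
  show ε * ‖x.1‖ - ‖x.2 - ‖x.1‖ • b₀‖ < 0
  have hs : x.1.1 ≤ ‖x.1‖ := by
    rw [norm_prod_real]
    exact (le_abs_self _).trans (le_max_left _ _)
  have hs0 : 0 < ‖x.1‖ := hu.trans_le hs
  have h1 : ‖‖x.1‖ • b₀‖ ≤ ‖x.2 - ‖x.1‖ • b₀‖ + ‖x.2‖ := by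
    have e1 : ‖x.1‖ • b₀ = x.2 - (x.2 - ‖x.1‖ • b₀) := by abel
    calc ‖‖x.1‖ • b₀‖ = ‖x.2 - (x.2 - ‖x.1‖ • b₀)‖ := by rw [← e1]
      _ ≤ ‖x.2‖ + ‖x.2 - ‖x.1‖ • b₀‖ := norm_sub_le _ _
      _ = _ := add_comm _ _
  rw [norm_smul, norm_norm] at h1
  have h2 := hx.2
  have h3 := h.hb0
  have h4 := h.h2e
  have h5 := h.hr
  have h6 : ‖x.1‖ * (6 * r₀) ≤ ‖x.1‖ * ‖b₀‖ := mul_le_mul_of_nonneg_left h3 hs0.le
  have h7 : 3 * r₀ * x.1.1 ≤ 3 * r₀ * ‖x.1‖ := mul_le_mul_of_nonneg_left hs (by linarith)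
  have h8 : ‖x.1‖ * (2 * ε) ≤ ‖x.1‖ * r₀ := mul_le_mul_of_nonneg_left h4 hs0.le
  have h9 : 0 < ‖x.1‖ * r₀ := mul_pos hs0 (by linarith)
  nlinarith

/-- (G1) -/
theorem G_zero_on (h : EndH e b₀ ε R M r₀ b ν) {x : (ℝ × P) × V} (hx : x ∈ swU (3 * r₀)) :
    NN e ε R M (farB b₀ b) (farN e ν) x = 0 ↔ KA e ε R M b ν x = 0 := by
  have hu := swU_pos h.hr hx
  have hs : x.1 ≠ 0 := fun hs => by rw [hs] at hu; exact lt_irrefl _ hu
  have hfar := h.far_neg hx
  have e0 : (NP e ε R M (farB b₀ b) (farN e ν)).rho () none x =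
      (KP e ε R M b ν).rho () none x := by
    rw [KP_none, NP_none, abs_of_pos hu]
  have e1 : ∀ a : A, (NP e ε R M (farB b₀ b) (farN e ν)).rho () (some (some a)) x =
      (KP e ε R M b ν).rho () (some a) x := fun a => by rw [NP_some, KP_some]; rfl
  have e2 : (NP e ε R M (farB b₀ b) (farN e ν)).be () none x =
      (KP e ε R M b ν).be () none x := by rw [NP_be_none, KP_be_none]
  have e3 : ∀ a : A, (NP e ε R M (farB b₀ b) (farN e ν)).be () (some (some a)) x =
      (KP e ε R M b ν).be () (some a) x := fun a => by rw [NP_be_some, KP_be_some]; rfl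
  rw [KA_eq, NN_eq,
    gfn_zero_iff_pt h.hε (N := fun x : (ℝ × P) × V => ‖x.1‖) (base_pos hs)
      fun a a' => KP_sep h.ad' h.hd hs a a',
    gfn_zero_iff_pt h.hε (N := fun x : (ℝ × P) × V => ‖x.1‖) (base_pos hs)
      fun a a' => NP_sep h.ad h.bdata hs a a']
  constructor
  · rintro ⟨h1, a, h2, h3⟩
    refine ⟨?_, ?_⟩
    · rintro (_ | a)
      · rw [← e0]; exact h1 none
      · rw [← e1]; exact h1 (some (some a))
    · rcases a with _ | _ | a
      · exact ⟨none, by rw [← e0]; exact h2, by rw [← e2]; exact h3⟩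
      · exact absurd h2 hfar.ne
      · exact ⟨some a, by rw [← e1]; exact h2, by rw [← e3]; exact h3⟩
  · rintro ⟨h1, a, h2, h3⟩
    refine ⟨?_, ?_⟩
    · rintro (_ | _ | a)
      · rw [e0]; exact h1 none
      · exact hfar.le
      · rw [e1]; exact h1 (some a)
    · rcases a with _ | a
      · exact ⟨none, by rw [e0]; exact h2, by rw [e2]; exact h3⟩
      · exact ⟨some (some a), by rw [e1]; exact h2, by rw [e3]; exact h3⟩

end EndH

/-- Signs of the slab and of the far sheet of the normal form. -/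
theorem far_sign (hε : 0 < ε) (hRb : ‖b₀‖ + 2 * ε < R) (hM : 8 * R ≤ M) {s : ℝ × P}
    (hs : s ≠ 0) (v : V) :
    max (min (R * ‖s‖ - ‖v‖) (M * (‖s.2‖ - |s.1|)))
      (min (ε * ‖s‖ - ‖v - ‖s‖ • b₀‖) (M * (s.1 - ‖s.2‖ / 2))) = 0 ↔
    max (min (min (M * (‖s.2‖ - s.1)) (R * ‖s.2‖ - ‖v‖)) (M * (‖s.2‖ + s.1)))
      (ε * s.1 - ‖v - s.1 • b₀‖) = 0 := by
  have hp := norm_nonneg s.2
  have hv := norm_nonneg v
  have hb := norm_nonneg b₀
  have hR : 0 < R := by linarith
  have hM0 : 0 < M := by linarith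
  have hs0 := base_pos hs
  have bound : ∀ c : ℝ, 0 ≤ c → ‖v‖ ≤ ‖v - c • b₀‖ + c * ‖b₀‖ := by
    intro c hc
    have e1 : v = (v - c • b₀) + c • b₀ := by abel
    calc ‖v‖ = ‖(v - c • b₀) + c • b₀‖ := by rw [← e1]
      _ ≤ ‖v - c • b₀‖ + ‖c • b₀‖ := norm_add_le _ _
      _ = _ := by rw [norm_smul, Real.norm_eq_abs, abs_of_nonneg hc]
  rcases le_or_gt ‖s.2‖ s.1 with h1 | h1
  · -- over the far region
    have hu : 0 ≤ s.1 := hp.trans h1
    have hsn : ‖s‖ = s.1 := by rw [norm_base_of_ge (by rw [abs_of_nonneg hu]; exact h1),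
      abs_of_nonneg hu]
    have hu' : 0 < s.1 := by rw [← hsn]; exact hs0
    rw [hsn, abs_of_nonneg hu]
    have h2 : ε * s.1 ≤ M * (s.1 - ‖s.2‖ / 2) := by
      have i1 : s.1 / 2 ≤ s.1 - ‖s.2‖ / 2 := by linarith
      have i2 : M * (s.1 / 2) ≤ M * (s.1 - ‖s.2‖ / 2) := mul_le_mul_of_nonneg_left i1 hM0.le
      have i3 : ε * s.1 ≤ M / 2 * s.1 := mul_le_mul_of_nonneg_right (by linarith) hu
      linarith
    have h3 := norm_nonneg (v - s.1 • b₀)
    rw [min_eq_left (show ε * s.1 - ‖v - s.1 • b₀‖ ≤ M * (s.1 - ‖s.2‖ / 2) by linarith)]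
    rcases h1.eq_or_lt with h4 | h4
    · rw [h4, sub_self, mul_zero, min_comm]
      have h5 : min 0 (R * s.1 - ‖v‖) ≤ M * (s.1 + s.1) :=
        (min_le_left _ _).trans (by positivity)
      rw [min_eq_left h5]
    · have h5 : M * (‖s.2‖ - s.1) < 0 := mul_neg_of_pos_of_neg hM0 (by linarith)
      have h6 : min (R * s.1 - ‖v‖) (M * (‖s.2‖ - s.1)) < 0 := (min_le_right _ _).trans_lt h5
      have h7 : min (min (M * (‖s.2‖ - s.1)) (R * ‖s.2‖ - ‖v‖)) (M * (‖s.2‖ + s.1)) < 0 :=
        ((min_le_left _ _).trans (min_le_left _ _)).trans_lt h5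
      have key : ∀ q B : ℝ, q < 0 → (max q B = 0 ↔ B = 0) := by
        intro q B hq
        constructor
        · intro h
          rcases max_choice q B with h' | h'
          · rw [h'] at h; exact absurd h hq.ne
          · rw [← h', h]
        · intro h
          rw [h, max_eq_right hq.le]
      rw [key _ _ h6, key _ _ h7]
  · rcases le_or_gt (-‖s.2‖) s.1 with h2 | h2
    · -- over the slab
      have habs : |s.1| ≤ ‖s.2‖ := abs_le.mpr ⟨h2, h1.le⟩
      have hsn : ‖s‖ = ‖s.2‖ := norm_base_of_le habs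
      have hp0 : 0 < ‖s.2‖ := by rw [← hsn]; exact hs0
      have e1 : min (min (M * (‖s.2‖ - s.1)) (R * ‖s.2‖ - ‖v‖)) (M * (‖s.2‖ + s.1)) =
          min (R * ‖s‖ - ‖v‖) (M * (‖s.2‖ - |s.1|)) := by
        rw [hsn]
        rcases le_total 0 s.1 with h3 | h3
        · rw [abs_of_nonneg h3, min_comm (M * (‖s.2‖ - s.1))]
          refine min_eq_left ((min_le_right _ _).trans ?_)
          exact mul_le_mul_of_nonneg_left (by linarith) hM0.le
        · rw [abs_of_nonpos h3, sub_neg_eq_add, min_comm (M * (‖s.2‖ - s.1)), min_assoc]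
          congr 1
          refine min_eq_right ?_
          exact mul_le_mul_of_nonneg_left (by linarith) hM0.le
      rw [e1]
      set q := min (R * ‖s‖ - ‖v‖) (M * (‖s.2‖ - |s.1|)) with hq
      have pos : 0 ≤ s.1 → ‖v‖ < R * ‖s.2‖ → 0 < q := by
        intro h3 h4
        rw [hq, hsn, lt_min_iff]
        refine ⟨by linarith, mul_pos hM0 ?_⟩
        rw [abs_of_nonneg h3]
        linarith
      have f1 : 0 ≤ min (ε * ‖s‖ - ‖v - ‖s‖ • b₀‖) (M * (s.1 - ‖s.2‖ / 2)) → 0 < q := by
        intro h3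
        rw [le_min_iff] at h3
        have h4 : 0 ≤ s.1 - ‖s.2‖ / 2 := nonneg_of_mul_nonneg_right h3.2 hM0
        have h5 := h3.1
        rw [hsn] at h5
        have h6 := bound ‖s.2‖ hp
        refine pos (by linarith) ?_
        nlinarith
      have f2 : 0 ≤ ε * s.1 - ‖v - s.1 • b₀‖ → 0 < q := by
        intro h3
        have h4 : 0 ≤ s.1 := by
          have := norm_nonneg (v - s.1 • b₀)
          have h5 : 0 ≤ ε * s.1 := by linarith
          exact nonneg_of_mul_nonneg_right h5 hε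
        have h6 := bound s.1 h4
        refine pos h4 ?_
        have h7 : s.1 * (‖b₀‖ + ε) ≤ ‖s.2‖ * (‖b₀‖ + ε) :=
          mul_le_mul_of_nonneg_right h1.le (by linarith)
        have h8 : ‖s.2‖ * (‖b₀‖ + ε) < ‖s.2‖ * R := mul_lt_mul_of_pos_left (by linarith) hp0
        nlinarith
      have key : ∀ q B B' : ℝ, (0 ≤ B → 0 < q) → (0 ≤ B' → 0 < q) →
          (max q B = 0 ↔ max q B' = 0) := by
        intro q B B' hB hB'
        rcases le_or_gt q 0 with h | h
        · have i1 : B < 0 := by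
            by_contra hn
            exact absurd (hB (not_lt.mp hn)) (not_lt.mpr h)
          have i2 : B' < 0 := by
            by_contra hn
            exact absurd (hB' (not_lt.mp hn)) (not_lt.mpr h)
          constructor
          · intro h3
            rcases max_choice q B with h' | h'
            · rw [h'] at h3
              rw [h3]
              exact max_eq_left i2.le
            · rw [h'] at h3; exact absurd h3 i1.ne
          · intro h3
            rcases max_choice q B' with h' | h'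
            · rw [h'] at h3
              rw [h3]
              exact max_eq_left i1.le
            · rw [h'] at h3; exact absurd h3 i2.ne
        · constructor
          · intro h3
            exact absurd h3 (h.trans_le (le_max_left _ _)).ne'
          · intro h3
            exact absurd h3 (h.trans_le (le_max_left _ _)).ne'
      exact key _ _ _ f1 f2
    · -- behind
      have hu : s.1 < 0 := by linarith
      have i1 : min (R * ‖s‖ - ‖v‖) (M * (‖s.2‖ - |s.1|)) < 0 := by
        refine (min_le_right _ _).trans_lt (mul_neg_of_pos_of_neg hM0 ?_)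
        rw [abs_of_neg hu]; linarith
      have i2 : min (ε * ‖s‖ - ‖v - ‖s‖ • b₀‖) (M * (s.1 - ‖s.2‖ / 2)) < 0 :=
        (min_le_right _ _).trans_lt (mul_neg_of_pos_of_neg hM0 (by linarith))
      have i3 : min (min (M * (‖s.2‖ - s.1)) (R * ‖s.2‖ - ‖v‖)) (M * (‖s.2‖ + s.1)) < 0 :=
        (min_le_right _ _).trans_lt (mul_neg_of_pos_of_neg hM0 (by linarith))
      have i4 : ε * s.1 - ‖v - s.1 • b₀‖ < 0 := by
        have := norm_nonneg (v - s.1 • b₀)
        have h3 : ε * s.1 < 0 := mul_neg_of_pos_of_neg hε hu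
        linarith
      constructor
      · intro h; exact absurd h (max_lt i1 i2).ne
      · intro h; exact absurd h (max_lt i3 i4).ne

namespace EndH

/-- (G2) -/
theorem G_zero_off (h : EndH e b₀ ε R M r₀ b ν) {x : (ℝ × P) × V} (hx : x ∉ swU (3 * r₀))
    (hx0 : x ≠ 0) : NN e ε R M (farB b₀ b) (farN e ν) x = 0 ↔
      inner ℝ x.2 e = 0 ∧ max (min (slab₁ M R x) (M * (‖x.1.2‖ + x.1.1)))
        (ε * x.1.1 - ‖x.2 - x.1.1 • b₀‖) = 0 := by
  have hM := h.hM
  have hR := h.hR0
  have hε := h.hε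
  by_cases hs : x.1 = 0
  · have hN : ‖x.1‖ = 0 := by rw [hs, norm_zero]
    have h2 : x.2 ≠ 0 := fun h2 => hx0 (Prod.ext hs h2)
    have h3 : 0 < ‖x.2‖ := norm_pos_iff.mpr h2
    constructor
    · intro h1
      exfalso
      rw [NN_eq] at h1
      have h2 : gre (NP e ε R M (farB b₀ b) (farN e ν)).rho () x = 0 := congrArg Complex.re h1
      obtain ⟨a, ha⟩ := exists_gre (NP e ε R M (farB b₀ b) (farN e ν)).rho () x
      have h3 := tp_neg_of_base (e := e) (ν := farN e ν) h.ad hx0 hN a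
      have h4 : (NP e ε R M (farB b₀ b) (farN e ν)).rho () a x ≤
          (KP e ε R M (farB b₀ b) (farN e ν)).rho () a x := by
        rcases a with _ | a
        · exact NP_none_le hM.le x
        · exact le_rfl
      rw [← ha, h2] at h4
      exact absurd h3 (not_lt.mpr h4)
    · rintro ⟨-, h1⟩
      exfalso
      have h4 : x.1.1 = 0 := by rw [hs]; rfl
      have h5 : ‖x.1.2‖ = 0 := by rw [hs]; exact norm_zero
      rw [slab₁, h4, h5, zero_smul, sub_zero, mul_zero, mul_zero, sub_zero, mul_zero, add_zero,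
        mul_zero, zero_sub] at h1
      have h6 : max (min (min 0 (-‖x.2‖)) 0) (-‖x.2‖) < 0 :=
        max_lt ((min_le_left _ _).trans_lt ((min_le_right _ _).trans_lt (by linarith)))
          (by linarith)
      exact absurd h1 h6.ne
  · have hneg : ∀ a : A, (NP e ε R M (farB b₀ b) (farN e ν)).rho () (some (some a)) x < 0 := by
      intro a
      exact sheet_neg (e := e) (R := R) (ν := ν) h.hr hε hM h.hB
        (fun hC => hx (swC_subset h.hr hx0 hC)) a
    have hsgn := far_sign hε h.hRb h.hMR hs x.2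
    rw [slab₁, ← hsgn, NN_eq,
      gfn_zero_iff_pt hε (N := fun x : (ℝ × P) × V => ‖x.1‖) (base_pos hs)
        fun a a' => NP_sep h.ad h.bdata hs a a']
    have hbe : (NP e ε R M (farB b₀ b) (farN e ν)).be () (some none) x = inner ℝ x.2 e := by
      rw [NP_be_some]
      show inner ℝ (x.2 - ‖x.1‖ • b₀) e = inner ℝ x.2 e
      rw [inner_sub_left, real_inner_smul_left, h.h0, mul_zero, sub_zero]
    have hn : (NP e ε R M (farB b₀ b) (farN e ν)).rho () none x =
        min (R * ‖x.1‖ - ‖x.2‖) (M * (‖x.1.2‖ - |x.1.1|)) := NP_none x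
    have hf : (NP e ε R M (farB b₀ b) (farN e ν)).rho () (some none) x =
        min (ε * ‖x.1‖ - ‖x.2 - ‖x.1‖ • b₀‖) (M * (x.1.1 - ‖x.1.2‖ / 2)) := NP_some none x
    rw [← hn, ← hf]
    constructor
    · rintro ⟨h1, a, h2, h3⟩
      rcases a with _ | _ | a
      · refine ⟨h3, ?_⟩
        rw [h2]
        exact max_eq_left (h1 (some none))
      · refine ⟨hbe.symm.trans h3, ?_⟩
        rw [h2]
        exact max_eq_right (h1 none)
      · exact absurd h2 (hneg a).ne
    · rintro ⟨h1, h2⟩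
      refine ⟨?_, ?_⟩
      · rintro (_ | _ | a)
        · exact (le_max_left _ _).trans_eq h2
        · exact (le_max_right _ _).trans_eq h2
        · exact (hneg a).le
      · rcases max_choice ((NP e ε R M (farB b₀ b) (farN e ν)).rho () none x)
          ((NP e ε R M (farB b₀ b) (farN e ν)).rho () (some none) x) with h3 | h3
        · exact ⟨none, by rw [← h3, h2], h1⟩
        · exact ⟨some none, by rw [← h3, h2], hbe.trans h1⟩

end EndH

end Vale.Agent.P268.T
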